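import Vale.Agent.P087.Basic

/-!
# Short moments of the model only see short relations in the group (P087, Block 7b)
-/

open scoped InnerProductSpace

namespace Vale.Agent.P087.ChiLower

section tau

variable {H : Type*} [NormedAddCommGroup H] [InnerProductSpace ℂ H] (Ω : H)

lemma tau_add (a b : H →L[ℂ] H) : tau Ω (a + b) = tau Ω a + tau Ω b := by
  simp [tau]

lemma tau_smul (z : ℂ) (a : H →L[ℂ] H) : tau Ω (z • a) = z * tau Ω a := by
  simp [tau]

end tau

lemma splitSum_map {α β : Type*} (f : α → β) (w : List α) (F : List β → β → List β → ℂ) :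
    splitSum (w.map f) F = splitSum w fun p x s => F (p.map f) (f x) (s.map f) := by
  unfold splitSum
  refine Fintype.sum_equiv (finCongr (List.length_map f)) _ _ fun i => ?_
  simp [List.map_take, List.map_drop]

lemma splitSum_congr {α : Type*} (w : List α) (F F' : List α → α → List α → ℂ)
    (h : ∀ p x s, w = p ++ x :: s → F p x s = F' p x s) : splitSum w F = splitSum w F' := by
  refine Finset.sum_congr rfl fun i _ => h _ _ _ ?_
  conv_lhs => rw [← List.take_append_drop i w, List.drop_eq_getElem_cons i.2]
  rfl

variable {κ : Type}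

/-- the size of a letter -/
def wt : List (Fin 4) ⊕ κ → ℕ := Sum.elim List.length fun _ => 0

/-- evaluation of the letters in a group -/
def ev {G : Type} [Monoid G] (a : Fin 4 → G) : List (Fin 4) ⊕ κ → G ⊕ κ :=
  Sum.map (fun u => (u.map a).prod) id

/-- moments of the model in the group with generators `a` -/
noncomputable def mom {G : Type} [Group G] (a : Fin 4 → G) (w : List (List (Fin 4) ⊕ κ)) : ℂ :=
  tau (vac G κ) (wordOp genOp (w.map (ev a)))

lemma mom_nil {G : Type} [Group G] (a : Fin 4 → G) :
    mom a ([] : List (List (Fin 4) ⊕ κ)) = 1 := by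
  simp [mom, tau, norm_vac]

lemma mom_concat_inl (hrec : RecursionPin) {G : Type} [Group G] [DecidableEq G] (a : Fin 4 → G)
    (w : List (List (Fin 4) ⊕ κ)) (u : List (Fin 4)) :
    mom a (w ++ [Sum.inl u]) = (if (u.map a).prod = 1 then (1 / 4 : ℂ) else 0) * mom a w +
      splitSum w fun p x s => match x with
        | Sum.inl v => mom a (p ++ [Sum.inl (v ++ u)]) * mom a s
        | Sum.inr _ => 0 := by
  classical
  have h := (hrec G κ (w.map (ev a))).1 (u.map a).prod
  rw [splitSum_map] at h
  rw [show mom a (w ++ [Sum.inl u]) =
      tau (vac G κ) (wordOp genOp (w.map (ev a) ++ [Sum.inl (u.map a).prod])) by simp [mom, ev], h]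
  refine congrArg₂ (· + ·) rfl (splitSum_congr _ _ _ fun p x s _ => ?_)
  cases x <;> simp [mom, ev]

lemma mom_concat_inr (hrec : RecursionPin) [DecidableEq κ] {G : Type} [Group G] (a : Fin 4 → G)
    (w : List (List (Fin 4) ⊕ κ)) (e : κ) :
    mom a (w ++ [Sum.inr e]) =
      splitSum w fun p x s => if x = Sum.inr e then mom a p * mom a s else 0 := by
  classical
  have h := (hrec G κ (w.map (ev a))).2 e
  rw [splitSum_map] at h
  rw [show mom a (w ++ [Sum.inr e]) =
      tau (vac G κ) (wordOp genOp (w.map (ev a) ++ [Sum.inr e])) by simp [mom, ev], h]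
  refine splitSum_congr _ _ _ fun p x s _ => ?_
  cases x <;> simp [mom, ev]

/-- Two groups with the same relations of length at most `R` have the same moments of size at
most `R`. -/
theorem mom_eq (hrec : RecursionPin) {G Q : Type} [Group G] [Group Q] (a : Fin 4 → G)
    (b : Fin 4 → Q) (R : ℕ)
    (hab : ∀ u : List (Fin 4), u.length ≤ R → ((u.map b).prod = 1 ↔ (u.map a).prod = 1))
    (w : List (List (Fin 4) ⊕ κ)) (hw : (w.map wt).sum ≤ R) : mom a w = mom b w := by
  classical
  induction hn : w.length using Nat.strong_induction_on generalizing w with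
  | _ m ih =>
    rcases List.eq_nil_or_concat w with rfl | ⟨w', x, rfl⟩
    · rw [mom_nil, mom_nil]
    rw [List.concat_eq_append] at hw hn ⊢
    simp only [List.map_append, List.map_cons, List.map_nil, List.sum_append, List.sum_cons,
      List.sum_nil, add_zero] at hw
    simp only [List.length_append, List.length_singleton] at hn
    have ih' : ∀ v : List (List (Fin 4) ⊕ κ), v.length ≤ w'.length → (v.map wt).sum ≤ R →
        mom a v = mom b v := fun v hl hs => ih v.length (by omega) v hs rfl
    rcases x with u | e
    · simp only [wt, Sum.elim_inl] at hw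
      rw [mom_concat_inl hrec, mom_concat_inl hrec, ih' w' le_rfl (by simp only [wt]; omega)]
      simp only [hab u (by omega)]
      congr 1
      refine splitSum_congr _ _ _ fun p y s hy => ?_
      rcases y with v | _
      · have hlen : w'.length = p.length + (s.length + 1) := by simp [hy]
        have hsum : (w'.map wt).sum = (p.map wt).sum + (v.length + (s.map wt).sum) := by
          simp [hy, wt]
        simp only [wt] at hsum
        simp only
        rw [ih' (p ++ [Sum.inl (v ++ u)]) (by simp; omega) (by simp [wt]; omega),
          ih' s (by omega) (by simp only [wt]; omega)]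
      · rfl
    · rw [mom_concat_inr hrec, mom_concat_inr hrec]
      refine splitSum_congr _ _ _ fun p y s hy => ?_
      split_ifs with h
      · have hlen : w'.length = p.length + (s.length + 1) := by simp [hy]
        have hsum : (w'.map wt).sum = (p.map wt).sum + (wt y + (s.map wt).sum) := by
          simp [hy]
        rw [ih' p (by omega) (by omega), ih' s (by omega) (by omega)]
      · rfl

/-- The same for the tuple `modelX`. -/
theorem tau_modelX_eq (hrec : RecursionPin) {G Q : Type} [Group G] [Group Q] (a : Fin 4 → G)
    (b : Fin 4 → Q) (R L : ℕ)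
    (hab : ∀ u : List (Fin 4), u.length ≤ R → ((u.map b).prod = 1 ↔ (u.map a).prod = 1))
    {n : ℕ} (word : Fin n → List (Fin 4)) (hL : ∀ j, (word j).length ≤ L) (c : Fin n → ℝ)
    (w : List (Fin n)) (hw : L * w.length ≤ R) :
    tau (vac G (Fin n ⊕ Fin n)) (wordOp (modelX (fun j => ((word j).map a).prod) c) w) =
      tau (vac Q (Fin n ⊕ Fin n)) (wordOp (modelX (fun j => ((word j).map b).prod) c) w) := by
  suffices h : ∀ v : List (List (Fin 4) ⊕ (Fin n ⊕ Fin n)),
      (v.map wt).sum + L * w.length ≤ R →
      tau (vac G (Fin n ⊕ Fin n)) (wordOp genOp (v.map (ev a)) *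
          wordOp (modelX (fun j => ((word j).map a).prod) c) w) =
        tau (vac Q (Fin n ⊕ Fin n)) (wordOp genOp (v.map (ev b)) *
          wordOp (modelX (fun j => ((word j).map b).prod) c) w) by
    simpa using h [] (by simpa using hw)
  clear hw
  induction w with
  | nil =>
    intro v hv
    simpa [mom] using mom_eq hrec a b R hab v (by simpa using hv)
  | cons j w ih =>
    intro v hv
    simp only [List.length_cons, Nat.mul_succ] at hv
    have hj := hL j
    have hA := ih (v ++ [Sum.inl (word j)]) (by simp [wt]; simp only [wt] at hv; omega)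
    have hS := ih (v ++ [Sum.inr (Sum.inl j)]) (by simp [wt]; simp only [wt] at hv; omega)
    simp only [List.map_append, List.map_cons, List.map_nil, wordOp_append, wordOp_cons,
      wordOp_nil, mul_one, ev, Sum.map_inl, Sum.map_inr, id_eq, genOp, Sum.elim_inl,
      Sum.elim_inr] at hA hS
    simp only [wordOp_cons, modelX, ev, genOp, ← mul_assoc, mul_add, add_mul, mul_smul_comm,
      smul_mul_assoc, tau_add, tau_smul]
    rw [hA, hS]

end Vale.Agent.P087.ChiLower
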