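import Vale.Agent.P087.Basic

/-!
# Lebesgue volume from standard Gaussian probability (P087, Block 7b)
-/

open scoped ENNReal
open MeasureTheory ProbabilityTheory Filter

namespace Vale.Agent.P087.ChiLower

lemma gaussianReal_le (s : Set ℝ) :
    gaussianReal 0 1 s ≤ ENNReal.ofReal (√(2 * Real.pi))⁻¹ * volume s := by
  rw [gaussianReal_apply 0 one_ne_zero, ← setLIntegral_const]
  refine lintegral_mono fun x => ?_
  refine ENNReal.ofReal_le_ofReal ?_
  rw [gaussianPDFReal_def]
  simp only [sub_zero, NNReal.coe_one, mul_one]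
  refine mul_le_of_le_one_right (by positivity) (Real.exp_le_one_iff.2 ?_)
  have : 0 ≤ x ^ 2 := sq_nonneg x
  linarith [div_nonneg this (zero_le_two (α := ℝ)), neg_div (2 : ℝ) (x ^ 2)]

variable {ι : Type*} [Fintype ι]

/-- a product of standard Gaussians is bounded by a multiple of Lebesgue measure -/
lemma pi_gaussian_le (s : Set (ι → ℝ)) :
    Measure.pi (fun _ : ι => gaussianReal 0 1) s
      ≤ ENNReal.ofReal (√(2 * Real.pi))⁻¹ ^ Fintype.card ι * volume s := by
  set K := ENNReal.ofReal (√(2 * Real.pi))⁻¹ ^ Fintype.card ι with hK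
  have hK0 : K ≠ 0 := by
    rw [hK]; exact pow_ne_zero _ (ne_of_gt (ENNReal.ofReal_pos.2 (by positivity)))
  have hKtop : K ≠ ∞ := by rw [hK]; exact ENNReal.pow_ne_top ENNReal.ofReal_ne_top
  set g := Measure.pi (fun _ : ι => gaussianReal 0 1) with hg
  have key : (K⁻¹ • g).toOuterMeasure ≤
      OuterMeasure.pi fun _ : ι => (volume : Measure ℝ).toOuterMeasure := by
    rw [OuterMeasure.le_pi]
    intro t _
    show (K⁻¹ • g) (Set.univ.pi t) ≤ ∏ i, volume (t i)
    rw [Measure.smul_apply, smul_eq_mul, ENNReal.inv_mul_le_iff hK0 hKtop, hg, Measure.pi_pi]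
    calc ∏ i, gaussianReal 0 1 (t i)
        ≤ ∏ i, ENNReal.ofReal (√(2 * Real.pi))⁻¹ * volume (t i) :=
          Finset.prod_le_prod' fun i _ => gaussianReal_le (t i)
      _ = K * ∏ i, volume (t i) := by
          rw [Finset.prod_mul_distrib, Finset.prod_const, Finset.card_univ, hK]
  have h := (key s).trans
    (show (OuterMeasure.pi fun _ : ι => (volume : Measure ℝ).toOuterMeasure) s ≤
        (volume : Measure (ι → ℝ)) s by
      rw [volume_pi, Measure.pi_def]; exact le_toMeasure_apply _ _ s)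
  rwa [Measure.coe_toOuterMeasure, Measure.smul_apply, smul_eq_mul,
    ENNReal.inv_mul_le_iff hK0 hKtop] at h

variable {n k : ℕ}

/-- the rescaling from flat coordinates to tuples of `k × k` coordinates -/
noncomputable def scale (r : Fin n → ℝ) (hr : ∀ j, r j ≠ 0) :
    (Fin n × Fin k × Fin k → ℝ) ≃L[ℝ] (Fin n → Fin k → Fin k → ℝ) :=
  LinearEquiv.toContinuousLinearEquiv
    { toFun := fun y j p q => r j * y (j, p, q)
      map_add' := fun y z => by ext; simp [mul_add]
      map_smul' := fun a y => by ext; simp; ring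
      invFun := fun z i => (r i.1)⁻¹ * z i.1 i.2.1 i.2.2
      left_inv := fun y => by ext i; simp [hr i.1]
      right_inv := fun z => by ext j p q; simp [hr j] }

lemma scale_apply (r : Fin n → ℝ) (hr : ∀ j, r j ≠ 0) (y : Fin n × Fin k × Fin k → ℝ)
    (j : Fin n) (p q : Fin k) : scale r hr y j p q = r j * y (j, p, q) := rfl

lemma mul_map_scale_apply (r : Fin n → ℝ) (hr : ∀ j, 0 < r j) (h : Fin n → Fin k → Fin k → ℝ)
    (M : Set (Fin n → Fin k → Fin k → ℝ)) :
    ENNReal.ofReal (∏ j, r j ^ (k * k)) *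
      volume ((fun y => h + scale r (fun j => (hr j).ne') y) ⁻¹' M) ≤ volume M := by
  set L := scale (k := k) r (fun j => (hr j).ne') with hL
  have h1 : (volume : Measure (Fin k → ℝ)).IsAddHaarMeasure :=
    Measure.pi.isAddHaarMeasure _
  have h2 : (volume : Measure (Fin k → Fin k → ℝ)).IsAddHaarMeasure :=
    Measure.pi.isAddHaarMeasure _
  have h3 : (volume : Measure (Fin n → Fin k → Fin k → ℝ)).IsAddHaarMeasure :=
    Measure.pi.isAddHaarMeasure _
  have : (Measure.map L volume).IsAddHaarMeasure := L.isAddHaarMeasure_map volume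
  obtain ⟨c, hc⟩ : ∃ c : NNReal, Measure.map L volume = c • volume :=
    ⟨_, Measure.isAddLeftInvariant_eq_smul _ _⟩
  let B : Set (Fin n → Fin k → Fin k → ℝ) :=
    Set.univ.pi fun j => Set.univ.pi fun _ => Set.univ.pi fun _ => Set.Icc 0 (r j)
  have hB : volume B = ENNReal.ofReal (∏ j, r j ^ (k * k)) := by
    simp only [B, volume_pi_pi, Real.volume_Icc, sub_zero, Finset.prod_const, Finset.card_univ,
      Fintype.card_fin, ← pow_mul]
    rw [ENNReal.ofReal_prod_of_nonneg fun j _ => pow_nonneg (hr j).le _]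
    exact Finset.prod_congr rfl fun j _ => (ENNReal.ofReal_pow (hr j).le _).symm
  have hpre : L ⁻¹' B = Set.univ.pi fun _ => Set.Icc (0 : ℝ) 1 := by
    ext y
    simp only [B, Set.mem_preimage, Set.mem_pi, Set.mem_univ, forall_const, Set.mem_Icc, hL,
      scale_apply, Prod.forall]
    exact forall_congr' fun j => forall_congr' fun p => forall_congr' fun q =>
      and_congr (mul_nonneg_iff_of_pos_left (hr j))
        (mul_le_iff_le_one_right (hr j))
  have hone : (c : ℝ≥0∞) * ENNReal.ofReal (∏ j, r j ^ (k * k)) = 1 := by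
    have h1 : Measure.map L volume B = 1 := by
      rw [show Measure.map L volume B = volume (L ⁻¹' B) from
        L.toHomeomorph.toMeasurableEquiv.map_apply B, hpre, volume_pi_pi]
      simp
    rw [hc, Measure.smul_apply, hB] at h1
    simpa [ENNReal.smul_def] using h1
  have hmeas : Measurable fun y => h + L y := (L.continuous.measurable).const_add h
  calc ENNReal.ofReal (∏ j, r j ^ (k * k)) * volume ((fun y => h + L y) ⁻¹' M)
      ≤ ENNReal.ofReal (∏ j, r j ^ (k * k)) * Measure.map (fun y => h + L y) volume M := by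
        gcongr
        exact Measure.le_map_apply hmeas.aemeasurable M
    _ = volume M := by
        rw [show Measure.map (fun y => h + L y) volume
          = Measure.map (h + ·) (Measure.map L volume) from
            (Measure.map_map (measurable_const_add h) L.continuous.measurable).symm, hc,
          Measure.map_smul, map_add_left_eq_self, Measure.smul_apply, ENNReal.smul_def,
          smul_eq_mul, ← mul_assoc, mul_comm _ (c : ℝ≥0∞), hone, one_mul]

/-- If an affine rescaling sends a set of Gaussian probability `≥ 1/2` into `M`, then `M` is not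
too small. -/
lemma volume_lower (r : Fin n → ℝ) (hr : ∀ j, 0 < r j) (h : Fin n → Fin k → Fin k → ℝ)
    (E : Set (Fin n × Fin k × Fin k → ℝ)) (M : Set (Fin n → Fin k → Fin k → ℝ))
    (hE : 2⁻¹ ≤ Measure.pi (fun _ => gaussianReal 0 1) E)
    (hEM : ∀ y ∈ E, h + scale r (fun j => (hr j).ne') y ∈ M) :
    ENNReal.ofReal (2⁻¹ * √(2 * Real.pi) ^ (n * (k * k)) * ∏ j, r j ^ (k * k)) ≤ volume M := by
  have hP : (0 : ℝ) < ∏ j, r j ^ (k * k) := Finset.prod_pos fun j _ => pow_pos (hr j) _
  have h1 : 2⁻¹ ≤ ENNReal.ofReal (√(2 * Real.pi))⁻¹ ^ (n * (k * k)) *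
      volume ((fun y => h + scale r (fun j => (hr j).ne') y) ⁻¹' M) := by
    refine hE.trans ((pi_gaussian_le E).trans ?_)
    rw [Fintype.card_prod, Fintype.card_prod, Fintype.card_fin, Fintype.card_fin]
    gcongr; exact hEM
  have hs : (0 : ℝ) < √(2 * Real.pi) := by positivity
  calc ENNReal.ofReal (2⁻¹ * √(2 * Real.pi) ^ (n * (k * k)) * ∏ j, r j ^ (k * k))
      = 2⁻¹ * ENNReal.ofReal (√(2 * Real.pi) ^ (n * (k * k)) * ∏ j, r j ^ (k * k)) := by
        rw [mul_assoc, ENNReal.ofReal_mul (by norm_num : (0 : ℝ) ≤ 2⁻¹),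
          ENNReal.ofReal_inv_of_pos two_pos, ENNReal.ofReal_ofNat]
    _ ≤ ENNReal.ofReal (√(2 * Real.pi))⁻¹ ^ (n * (k * k)) *
          volume ((fun y => h + scale r (fun j => (hr j).ne') y) ⁻¹' M) *
          ENNReal.ofReal (√(2 * Real.pi) ^ (n * (k * k)) * ∏ j, r j ^ (k * k)) :=
        mul_le_mul_of_nonneg_right h1 zero_le
    _ = ENNReal.ofReal (∏ j, r j ^ (k * k)) *
          volume ((fun y => h + scale r (fun j => (hr j).ne') y) ⁻¹' M) := by
        rw [← ENNReal.ofReal_pow (inv_nonneg.2 hs.le), mul_right_comm,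
          ← ENNReal.ofReal_mul (pow_nonneg (inv_nonneg.2 hs.le) _), ← mul_assoc,
          ← mul_pow, inv_mul_cancel₀ hs.ne', one_pow, one_mul]
    _ ≤ volume M := mul_map_scale_apply r hr h M

lemma log_volume_const (c : Fin n → ℝ) (hc : ∀ j, 0 < c j) (hk : 0 < k) :
    (∑ j, Real.log (2 * Real.pi * c j) / 2) - Real.log 2 ≤
      ((k : ℝ) ^ 2)⁻¹ * Real.log (2⁻¹ * √(2 * Real.pi) ^ (n * (k * k)) *
          ∏ j, (√(c j) / √k) ^ (k * k)) + (n : ℝ) / 2 * Real.log k := by
  have hk' : (0 : ℝ) < k := by exact_mod_cast hk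
  have hk1 : (1 : ℝ) ≤ k := by exact_mod_cast hk
  have hpi : (0 : ℝ) < 2 * Real.pi := by positivity
  have hr : ∀ j, 0 < √(c j) / √k := fun j => div_pos (Real.sqrt_pos.2 (hc j)) (Real.sqrt_pos.2 hk')
  rw [Real.log_mul (by positivity) (Finset.prod_pos fun j _ => pow_pos (hr j) _).ne',
    Real.log_mul (by norm_num) (by positivity), Real.log_prod fun j _ => (pow_pos (hr j) _).ne']
  simp only [Real.log_pow, Real.log_inv, Real.log_sqrt hpi.le,
    Real.log_div (Real.sqrt_pos.2 (hc _)).ne' (Real.sqrt_pos.2 hk').ne',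
    Real.log_sqrt (hc _).le, Real.log_sqrt hk'.le, Real.log_mul hpi.ne' (hc _).ne', add_div,
    Finset.sum_add_distrib, ← Finset.mul_sum, Finset.sum_sub_distrib, Finset.sum_const,
    Finset.card_univ, Fintype.card_fin, nsmul_eq_mul, Nat.cast_mul]
  have h2 : ((k : ℝ) ^ 2)⁻¹ * Real.log 2 ≤ Real.log 2 := by
    refine mul_le_of_le_one_left (Real.log_nonneg one_le_two) (inv_le_one_of_one_le₀ ?_)
    nlinarith
  have e : ∀ A B D : ℝ, ((k : ℝ) ^ 2)⁻¹ * (-Real.log 2 + (n : ℝ) * ((k : ℝ) * k) * A +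
      (k : ℝ) * k * (B - D)) = -(((k : ℝ) ^ 2)⁻¹ * Real.log 2) + (n : ℝ) * A + (B - D) := by
    intro A B D
    field_simp
  rw [e]
  linarith

end Vale.Agent.P087.ChiLower
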